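import Mathlib
import Vale.Agent.Lib.P328.RP.Defs

/-!
P328, Wasserstein route: the transport hypothesis (W) in coupling form, its dual
consequence for pairs of test functions, and chaining along unit steps of the column sums.

* `rowDist X Y` : half the `ℓ¹` distance of two arrays.
* `WHyp k n C` : for `k × n` tables, all row sums and every unit step
  `s → s'` of the column sums, the uniform laws on the tables with column sums `s` and `s'`
  have a coupling of expected `rowDist` at most `C`.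
* `DualBound r s s' B` : the dual form with constant `B`.
* `dualBound_of_tsub` : under `WHyp k n C`, column sums of equal total at distance `D` unit
  steps satisfy the dual bound with constant `C * D`.
-/

namespace Vale.Agent.Lib.P328.W1

open Finset
open Vale.Agent.Lib.P328.RP

/-- Half the `ℓ¹` distance of two arrays. -/
noncomputable def rowDist {k n : ℕ} (X Y : Fin k → Fin n → ℕ) : ℝ :=
  (1 / 2) * ∑ i, ∑ j, |(X i j : ℝ) - (Y i j : ℝ)|

/-- The average of a function under the uniform measure of a finite type. -/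
noncomputable def avg {Ω : Type*} [Fintype Ω] (φ : Ω → ℝ) : ℝ :=
  (∑ x, φ x) / (Fintype.card Ω : ℝ)

/-- `s'` arises from `s` by moving one unit of column sum from column `v` to column `u`. -/
def UnitStep {n : ℕ} (s s' : Fin n → ℕ) (u v : Fin n) : Prop :=
  u ≠ v ∧ s' u = s u + 1 ∧ s v = s' v + 1 ∧ ∀ j, j ≠ u → j ≠ v → s' j = s j

/-- Hypothesis (W) for `k × n` tables with constant `C`, in coupling form: for all row sums
`r` and every unit
step `s → s'` of the column sums there is a coupling `γ` of the two uniform laws whose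
expected `rowDist` is at most `C`. -/
def WHyp (k n : ℕ) (C : ℝ) : Prop :=
  ∀ (r : Fin k → ℕ) (s s' : Fin n → ℕ) (u v : Fin n), UnitStep s s' u v →
    ∃ γ : CT k n r s → CT k n r s' → ℝ,
      (∀ Y Y', 0 ≤ γ Y Y') ∧
      (∀ Y, ∑ Y', γ Y Y' = 1 / (Fintype.card (CT k n r s) : ℝ)) ∧
      (∀ Y', ∑ Y, γ Y Y' = 1 / (Fintype.card (CT k n r s') : ℝ)) ∧
      ∑ Y, ∑ Y', γ Y Y' * rowDist Y.1 Y'.1 ≤ C

section dist

variable {k n : ℕ}

theorem rowDist_nonneg (X Y : Fin k → Fin n → ℕ) : 0 ≤ rowDist X Y := by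
  unfold rowDist
  have h : 0 ≤ ∑ i, ∑ j, |(X i j : ℝ) - (Y i j : ℝ)| :=
    Finset.sum_nonneg (fun i _ => Finset.sum_nonneg (fun j _ => abs_nonneg _))
  linarith

theorem rowDist_self (X : Fin k → Fin n → ℕ) : rowDist X X = 0 := by
  unfold rowDist
  simp

theorem rowDist_triangle (X Y Z : Fin k → Fin n → ℕ) :
    rowDist X Z ≤ rowDist X Y + rowDist Y Z := by
  unfold rowDist
  have h : ∑ i, ∑ j, |(X i j : ℝ) - (Z i j : ℝ)|
      ≤ ∑ i, ∑ j, |(X i j : ℝ) - (Y i j : ℝ)| + ∑ i, ∑ j, |(Y i j : ℝ) - (Z i j : ℝ)| := by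
    rw [← Finset.sum_add_distrib]
    refine Finset.sum_le_sum (fun i _ => ?_)
    rw [← Finset.sum_add_distrib]
    exact Finset.sum_le_sum (fun j _ => abs_sub_le _ _ _)
  linarith

theorem rowDist_pos {X Y : Fin k → Fin n → ℕ} (h : X ≠ Y) : 0 < rowDist X Y := by
  have h1 : ∃ i j, X i j ≠ Y i j := by
    by_contra hcon
    push_neg at hcon
    exact h (funext (fun i => funext (fun j => hcon i j)))
  obtain ⟨i, j, hij⟩ := h1
  unfold rowDist
  have h2 : 0 < |(X i j : ℝ) - (Y i j : ℝ)| := by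
    apply abs_pos.mpr
    intro h3
    apply hij
    have h4 : (X i j : ℝ) = (Y i j : ℝ) := by linarith
    exact_mod_cast h4
  have h3 : |(X i j : ℝ) - (Y i j : ℝ)| ≤ ∑ j', |(X i j' : ℝ) - (Y i j' : ℝ)| :=
    Finset.single_le_sum (f := fun j' => |(X i j' : ℝ) - (Y i j' : ℝ)|)
      (fun _ _ => abs_nonneg _) (Finset.mem_univ j)
  have h4 : ∑ j', |(X i j' : ℝ) - (Y i j' : ℝ)|
      ≤ ∑ i', ∑ j', |(X i' j' : ℝ) - (Y i' j' : ℝ)| :=
    Finset.single_le_sum (f := fun i' => ∑ j', |(X i' j' : ℝ) - (Y i' j' : ℝ)|)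
      (fun _ _ => Finset.sum_nonneg (fun _ _ => abs_nonneg _)) (Finset.mem_univ i)
  linarith

end dist

section avgsec

variable {Ω : Type*} [Fintype Ω]

theorem avg_sub (φ ψ : Ω → ℝ) : avg φ - avg ψ = avg (fun x => φ x - ψ x) := by
  unfold avg
  rw [Finset.sum_sub_distrib, sub_div]

theorem avg_mono {φ ψ : Ω → ℝ} (h : ∀ x, φ x ≤ ψ x) : avg φ ≤ avg ψ := by
  unfold avg
  exact div_le_div_of_nonneg_right (Finset.sum_le_sum (fun x _ => h x)) (Nat.cast_nonneg _)

theorem avg_const [Nonempty Ω] (a : ℝ) : avg (fun _ : Ω => a) = a := by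
  unfold avg
  have h : (Fintype.card Ω : ℝ) ≠ 0 := by
    have := Fintype.card_pos (α := Ω)
    positivity
  rw [Finset.sum_const, Finset.card_univ, nsmul_eq_mul]
  field_simp

end avgsec

/-- The dual form of a transport bound between the uniform laws on the tables with column
sums `s` and `s'`. -/
def DualBound {k n : ℕ} (r : Fin k → ℕ) (s s' : Fin n → ℕ) (B : ℝ) : Prop :=
  Nonempty (CT k n r s) → Nonempty (CT k n r s') ∧
    ∀ (ℓ a : ℝ), 0 ≤ ℓ → ∀ (φ : CT k n r s → ℝ) (ψ : CT k n r s' → ℝ),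
      (∀ Y Y', φ Y - ψ Y' ≤ ℓ * rowDist Y.1 Y'.1 + a) → avg φ - avg ψ ≤ ℓ * B + a

section dual

variable {k n : ℕ} {r : Fin k → ℕ}

theorem dualBound_refl (s : Fin n → ℕ) : DualBound r s s 0 := by
  intro hne
  refine ⟨hne, fun ℓ a _ φ ψ h => ?_⟩
  rw [avg_sub, mul_zero, zero_add]
  have h1 : avg (fun x => φ x - ψ x) ≤ avg (fun _ : CT k n r s => a) := by
    apply avg_mono
    intro x
    have := h x x
    rw [rowDist_self, mul_zero, zero_add] at this
    exact this
  rw [avg_const] at h1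
  exact h1

theorem dualBound_step {C : ℝ} (hW : WHyp k n C) {s s' : Fin n → ℕ} {u v : Fin n}
    (hstep : UnitStep s s' u v) : DualBound r s s' C := by
  intro hne
  obtain ⟨γ, hγ, hm1, hm2, hcost⟩ := hW r s s' u v hstep
  have hN : (0 : ℝ) < (Fintype.card (CT k n r s) : ℝ) := by
    have := Fintype.card_pos (α := CT k n r s)
    positivity
  have hne' : Nonempty (CT k n r s') := by
    by_contra hcon
    rw [not_nonempty_iff] at hcon
    obtain ⟨Y⟩ := hne
    have h1 := hm1 Y
    rw [Finset.univ_eq_empty, Finset.sum_empty] at h1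
    have h2 : (0 : ℝ) < 1 / (Fintype.card (CT k n r s) : ℝ) := by positivity
    linarith
  refine ⟨hne', fun ℓ a hℓ φ ψ h => ?_⟩
  have hN' : (0 : ℝ) < (Fintype.card (CT k n r s') : ℝ) := by
    have := Fintype.card_pos (α := CT k n r s')
    positivity
  have e1 : avg φ = ∑ Y, ∑ Y', γ Y Y' * φ Y := by
    unfold avg
    rw [Finset.sum_div]
    refine Finset.sum_congr rfl (fun Y _ => ?_)
    rw [← Finset.sum_mul, hm1 Y]
    ring
  have e2 : avg ψ = ∑ Y, ∑ Y', γ Y Y' * ψ Y' := by
    unfold avg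
    rw [Finset.sum_div, Finset.sum_comm]
    refine Finset.sum_congr rfl (fun Y' _ => ?_)
    rw [← Finset.sum_mul, hm2 Y']
    ring
  have e3 : ∑ Y, ∑ Y', γ Y Y' = 1 := by
    have : ∀ Y ∈ (univ : Finset (CT k n r s)), ∑ Y', γ Y Y'
        = 1 / (Fintype.card (CT k n r s) : ℝ) := fun Y _ => hm1 Y
    rw [Finset.sum_congr rfl this, Finset.sum_const, Finset.card_univ, nsmul_eq_mul]
    field_simp
  have e4 : avg φ - avg ψ = ∑ Y, ∑ Y', γ Y Y' * (φ Y - ψ Y') := by
    rw [e1, e2, ← Finset.sum_sub_distrib]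
    refine Finset.sum_congr rfl (fun Y _ => ?_)
    rw [← Finset.sum_sub_distrib]
    exact Finset.sum_congr rfl (fun Y' _ => by ring)
  have e5 : ∑ Y, ∑ Y', γ Y Y' * (φ Y - ψ Y')
      ≤ ∑ Y, ∑ Y', (ℓ * (γ Y Y' * rowDist Y.1 Y'.1) + a * γ Y Y') := by
    refine Finset.sum_le_sum (fun Y _ => Finset.sum_le_sum (fun Y' _ => ?_))
    have h1 := mul_le_mul_of_nonneg_left (h Y Y') (hγ Y Y')
    linarith
  have e6 : ∑ Y, ∑ Y', (ℓ * (γ Y Y' * rowDist Y.1 Y'.1) + a * γ Y Y')
      = ℓ * ∑ Y, ∑ Y', γ Y Y' * rowDist Y.1 Y'.1 + a * ∑ Y, ∑ Y', γ Y Y' := by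
    rw [Finset.mul_sum, Finset.mul_sum, ← Finset.sum_add_distrib]
    refine Finset.sum_congr rfl (fun Y _ => ?_)
    rw [Finset.mul_sum, Finset.mul_sum, ← Finset.sum_add_distrib]
  rw [e4]
  rw [e6, e3] at e5
  have e7 := mul_le_mul_of_nonneg_left hcost hℓ
  linarith

theorem dualBound_trans {s s' s'' : Fin n → ℕ} {B B' : ℝ} (h1 : DualBound r s s' B)
    (h2 : DualBound r s' s'' B') : DualBound r s s'' (B + B') := by
  intro hne
  obtain ⟨hne', hb1⟩ := h1 hne
  obtain ⟨hne'', hb2⟩ := h2 hne'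
  refine ⟨hne'', fun ℓ a hℓ φ ψ h => ?_⟩
  set χ : CT k n r s' → ℝ := fun Y' =>
    Finset.univ.sup' Finset.univ_nonempty (fun Y : CT k n r s => φ Y - ℓ * rowDist Y.1 Y'.1)
    with hχ
  have k1 : avg φ - avg χ ≤ ℓ * B + 0 := by
    refine hb1 ℓ 0 hℓ φ χ (fun Y Y' => ?_)
    have h3 : φ Y - ℓ * rowDist Y.1 Y'.1 ≤ χ Y' :=
      Finset.le_sup' (fun Y : CT k n r s => φ Y - ℓ * rowDist Y.1 Y'.1) (Finset.mem_univ Y)
    linarith
  have k2 : avg χ - avg ψ ≤ ℓ * B' + a := by
    refine hb2 ℓ a hℓ χ ψ (fun Y' Y'' => ?_)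
    obtain ⟨Y, -, hY⟩ := Finset.exists_mem_eq_sup' Finset.univ_nonempty
      (fun Y : CT k n r s => φ Y - ℓ * rowDist Y.1 Y'.1)
    have h3 : χ Y' = φ Y - ℓ * rowDist Y.1 Y'.1 := hY
    have h4 := h Y Y''
    have h5 := mul_le_mul_of_nonneg_left (rowDist_triangle Y.1 Y'.1 Y''.1) hℓ
    rw [h3]
    linarith
  have k3 : ℓ * (B + B') = ℓ * B + ℓ * B' := by ring
  linarith

theorem dualBound_of_tsub {C : ℝ} (hW : WHyp k n C) (r : Fin k → ℕ) :
    ∀ (D : ℕ) (s s' : Fin n → ℕ), ∑ j, s j = ∑ j, s' j → ∑ j, (s' j - s j) = D →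
      DualBound r s s' (C * D) := by
  intro D
  induction D with
  | zero =>
    intro s s' htot hD
    have h1 : ∀ j, s' j ≤ s j := by
      intro j
      have h2 := (Finset.sum_eq_zero_iff.mp hD) j (Finset.mem_univ j)
      omega
    have h3 : s = s' := by
      by_contra hne
      have h4 : ∃ j, s' j < s j := by
        by_contra hcon
        push_neg at hcon
        exact hne (funext (fun j => le_antisymm (hcon j) (h1 j)))
      obtain ⟨j0, hj0⟩ := h4
      have h5 : ∑ j, s' j < ∑ j, s j :=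
        Finset.sum_lt_sum (fun j _ => h1 j) ⟨j0, Finset.mem_univ j0, hj0⟩
      omega
    subst h3
    have h6 : C * ((0 : ℕ) : ℝ) = 0 := by simp
    rw [h6]
    exact dualBound_refl s
  | succ D ih =>
    intro s s' htot hD
    have hu : ∃ u, s u < s' u := by
      by_contra hcon
      push_neg at hcon
      have h0 : ∑ j, (s' j - s j) = 0 :=
        Finset.sum_eq_zero (fun j _ => by have := hcon j; omega)
      omega
    obtain ⟨u, hu⟩ := hu
    have hv : ∃ v, s' v < s v := by
      by_contra hcon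
      push_neg at hcon
      have h5 : ∑ j, s j < ∑ j, s' j :=
        Finset.sum_lt_sum (fun j _ => hcon j) ⟨u, Finset.mem_univ u, hu⟩
      omega
    obtain ⟨v, hv⟩ := hv
    have huv : u ≠ v := by
      intro h
      subst h
      omega
    set s₁ : Fin n → ℕ := Function.update (Function.update s u (s u + 1)) v (s v - 1) with hs₁
    have e_u : s₁ u = s u + 1 := by
      rw [hs₁, Function.update_of_ne huv, Function.update_self]
    have e_v : s₁ v = s v - 1 := by
      rw [hs₁, Function.update_self]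
    have e_o : ∀ j, j ≠ u → j ≠ v → s₁ j = s j := by
      intro j hju hjv
      rw [hs₁, Function.update_of_ne hjv, Function.update_of_ne hju]
    have hstep : UnitStep s s₁ u v := ⟨huv, e_u, by omega, e_o⟩
    have ind_u : ∑ j : Fin n, (if j = u then 1 else 0) = 1 := by
      rw [Finset.sum_ite_eq' Finset.univ u (fun _ => 1)]
      simp
    have ind_v : ∑ j : Fin n, (if j = v then 1 else 0) = 1 := by
      rw [Finset.sum_ite_eq' Finset.univ v (fun _ => 1)]
      simp
    have htot₁ : ∑ j, s₁ j = ∑ j, s' j := by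
      have h1 : ∑ j, s₁ j + ∑ j : Fin n, (if j = v then 1 else 0)
          = ∑ j, s j + ∑ j : Fin n, (if j = u then 1 else 0) := by
        rw [← Finset.sum_add_distrib, ← Finset.sum_add_distrib]
        refine Finset.sum_congr rfl (fun j _ => ?_)
        by_cases hju : j = u
        · subst hju
          rw [if_neg huv, if_pos rfl, e_u]
        · by_cases hjv : j = v
          · subst hjv
            rw [if_pos rfl, if_neg hju, e_v]
            omega
          · rw [if_neg hju, if_neg hjv, e_o j hju hjv]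
      rw [ind_u, ind_v] at h1
      omega
    have hD₁ : ∑ j, (s' j - s₁ j) = D := by
      have h1 : ∑ j, (s' j - s₁ j) + ∑ j : Fin n, (if j = u then 1 else 0)
          = ∑ j, (s' j - s j) := by
        rw [← Finset.sum_add_distrib]
        refine Finset.sum_congr rfl (fun j _ => ?_)
        by_cases hju : j = u
        · subst hju
          rw [if_pos rfl, e_u]
          omega
        · by_cases hjv : j = v
          · subst hjv
            rw [if_neg hju, e_v]
            omega
          · rw [if_neg hju, e_o j hju hjv]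
            omega
      rw [ind_u] at h1
      omega
    have k1 : DualBound r s s₁ C := dualBound_step hW hstep
    have k2 : DualBound r s₁ s' (C * D) := ih s₁ s' htot₁ hD₁
    have k3 := dualBound_trans k1 k2
    have k4 : C * ((D + 1 : ℕ) : ℝ) = C + C * D := by
      push_cast
      ring
    rw [k4]
    exact k3

end dual

end Vale.Agent.Lib.P328.W1
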