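import Mathlib
import Vale.Agent.Lib.P328.RP.Defs
import Vale.Agent.Lib.P328.RP.Transfer
import Vale.Agent.Lib.P328.W1.Dual

/-!
P328, Wasserstein route, Step 1: under the transport hypothesis `WHyp m n C` the conditional
expectations given a single row satisfy

  `∑ i, (ip f (R {i}ᶜ f) - ip f (R univ f)) ≤ (1 + C) * (ip f f - ip f (R univ f))`

for every system of contingency tables (spectral independence of the rows with constant
`1 + C`).  The proof bounds the eigenvalues through the Lipschitz constant of an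
eigenfunction: given row `i`, the other rows form a uniform table whose column sums move by
unit steps when row `i` moves.
-/

namespace Vale.Agent.Lib.P328.W1

open Finset
open Vale.Agent.Lib.P335.Bip
open Vale.Agent.Lib.P328.RP
open Vale.Agent.Lib.P328.RP.Transfer

/-- Half the `ℓ¹` distance of two rows. -/
noncomputable def rowDist1 {n : ℕ} (x y : Fin n → ℕ) : ℝ :=
  (1 / 2) * ∑ j, |(x j : ℝ) - (y j : ℝ)|

theorem rowDist_eq_sum {k n : ℕ} (X Y : Fin k → Fin n → ℕ) :
    rowDist X Y = ∑ i, rowDist1 (X i) (Y i) := by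
  unfold rowDist rowDist1
  rw [Finset.mul_sum]

theorem rowDist1_eq_tsub {n : ℕ} (x y : Fin n → ℕ) (h : ∑ j, x j = ∑ j, y j) :
    rowDist1 x y = ((∑ j, (x j - y j) : ℕ) : ℝ) := by
  unfold rowDist1
  have h1 : ∑ j, (x j - y j) = ∑ j, (y j - x j) := by
    have h2 : ∑ j, (x j - y j) + ∑ j, y j = ∑ j, (y j - x j) + ∑ j, x j := by
      rw [← Finset.sum_add_distrib, ← Finset.sum_add_distrib]
      exact Finset.sum_congr rfl (fun j _ => by omega)
    omega
  have h3 : ∀ j, |(x j : ℝ) - (y j : ℝ)| = ((x j - y j : ℕ) : ℝ) + ((y j - x j : ℕ) : ℝ) := by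
    intro j
    rcases le_total (x j) (y j) with hle | hle
    · have h4 : (x j : ℝ) ≤ (y j : ℝ) := by exact_mod_cast hle
      rw [Nat.sub_eq_zero_of_le hle, Nat.cast_zero, zero_add, Nat.cast_sub hle, abs_sub_comm,
        abs_of_nonneg (by linarith)]
    · have h4 : (y j : ℝ) ≤ (x j : ℝ) := by exact_mod_cast hle
      rw [Nat.sub_eq_zero_of_le hle, Nat.cast_zero, add_zero, Nat.cast_sub hle,
        abs_of_nonneg (by linarith)]
  rw [Finset.sum_congr rfl (fun j _ => h3 j), Finset.sum_add_distrib]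
  have h4 : ((∑ j, (y j - x j) : ℕ) : ℝ) = ((∑ j, (x j - y j) : ℕ) : ℝ) := by rw [h1]
  push_cast at h4 ⊢
  linarith

section rowfibre

variable {m n : ℕ} {r : Fin (m + 1) → ℕ} {c : Fin n → ℕ}

theorem map_succAbove (i : Fin (m + 1)) :
    (univ : Finset (Fin m)).map (Fin.succAboveEmb i) = {i}ᶜ := by
  rw [Finset.map_eq_image, Fin.coe_succAboveEmb, Fin.image_succAbove_univ]

theorem not_mem_map_succAbove (i : Fin (m + 1)) :
    i ∉ (univ : Finset (Fin m)).map (Fin.succAboveEmb i) := by
  rw [map_succAbove]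
  simp

/-- The conditional expectation given row `i` is the average over the tables of the other
rows. -/
theorem R_compl_eq_avg (i : Fin (m + 1)) (f : CT (m + 1) n r c → ℝ) (X : CT (m + 1) n r c) :
    R ({i}ᶜ) f X = avg (fun z => f (iota (Fin.succAboveEmb i) X z)) := by
  rw [R_apply, ← map_succAbove i, sum_class, class_eq_image,
    Finset.card_image_of_injective _ (iota_injective _ X), Finset.card_univ]
  rfl

theorem rowDist_iota (i : Fin (m + 1)) (X X' : CT (m + 1) n r c)
    (z : CT m n (r ∘ Fin.succAboveEmb i) (fun j => ∑ a, X.1 (Fin.succAboveEmb i a) j))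
    (z' : CT m n (r ∘ Fin.succAboveEmb i) (fun j => ∑ a, X'.1 (Fin.succAboveEmb i a) j)) :
    rowDist (iota (Fin.succAboveEmb i) X z).1 (iota (Fin.succAboveEmb i) X' z').1
      = rowDist z.1 z'.1 + rowDist1 (X.1 i) (X'.1 i) := by
  have h1 : (iota (Fin.succAboveEmb i) X z).1 i = X.1 i :=
    iota_agree _ X z (not_mem_map_succAbove i)
  have h2 : (iota (Fin.succAboveEmb i) X' z').1 i = X'.1 i :=
    iota_agree _ X' z' (not_mem_map_succAbove i)
  have h3 : ∀ a, (iota (Fin.succAboveEmb i) X z).1 (i.succAbove a) = z.1 a :=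
    fun a => emb_apply_emb (Fin.succAboveEmb i) X.1 z.1 a
  have h4 : ∀ a, (iota (Fin.succAboveEmb i) X' z').1 (i.succAbove a) = z'.1 a :=
    fun a => emb_apply_emb (Fin.succAboveEmb i) X'.1 z'.1 a
  unfold rowDist rowDist1
  rw [Fin.sum_univ_succAbove _ i]
  simp only [h1, h2, h3, h4]
  ring

theorem col_split (i : Fin (m + 1)) (X : CT (m + 1) n r c) (j : Fin n) :
    X.1 i j + ∑ a, X.1 (Fin.succAboveEmb i a) j = c j := by
  rw [← X.2.2 j, Fin.sum_univ_succAbove (fun i' => X.1 i' j) i]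
  rfl

/-- Lipschitz bound for the conditional expectation given row `i`. -/
theorem cexp_row_lip {C : ℝ} (hW : WHyp m n C) (i : Fin (m + 1)) (f : CT (m + 1) n r c → ℝ)
    (ℓ : ℝ) (hℓ : 0 ≤ ℓ)
    (hf : ∀ Y Y' : CT (m + 1) n r c, f Y - f Y' ≤ ℓ * rowDist Y.1 Y'.1)
    (X X' : CT (m + 1) n r c) :
    R ({i}ᶜ) f X - R ({i}ᶜ) f X' ≤ ℓ * (1 + C) * rowDist1 (X.1 i) (X'.1 i) := by
  rw [R_compl_eq_avg, R_compl_eq_avg]
  have hs : ∀ j, X.1 i j + ∑ a, X.1 (Fin.succAboveEmb i a) j = c j := col_split i X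
  have hs' : ∀ j, X'.1 i j + ∑ a, X'.1 (Fin.succAboveEmb i a) j = c j := col_split i X'
  have hrow : ∑ j, X.1 i j = ∑ j, X'.1 i j := by rw [X.2.1 i, X'.2.1 i]
  have htot : ∑ j, (∑ a, X.1 (Fin.succAboveEmb i a) j)
      = ∑ j, (∑ a, X'.1 (Fin.succAboveEmb i a) j) := by
    have h1 : ∑ j, X.1 i j + ∑ j, (∑ a, X.1 (Fin.succAboveEmb i a) j) = ∑ j, c j := by
      rw [← Finset.sum_add_distrib]
      exact Finset.sum_congr rfl (fun j _ => hs j)
    have h2 : ∑ j, X'.1 i j + ∑ j, (∑ a, X'.1 (Fin.succAboveEmb i a) j) = ∑ j, c j := by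
      rw [← Finset.sum_add_distrib]
      exact Finset.sum_congr rfl (fun j _ => hs' j)
    omega
  have hD : ∑ j, ((∑ a, X'.1 (Fin.succAboveEmb i a) j) - (∑ a, X.1 (Fin.succAboveEmb i a) j))
      = ∑ j, (X.1 i j - X'.1 i j) :=
    Finset.sum_congr rfl (fun j _ => by
      have e1 := hs j
      have e2 := hs' j
      omega)
  have hdb := dualBound_of_tsub hW (r ∘ Fin.succAboveEmb i) (∑ j, (X.1 i j - X'.1 i j))
    (fun j => ∑ a, X.1 (Fin.succAboveEmb i a) j) (fun j => ∑ a, X'.1 (Fin.succAboveEmb i a) j)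
    htot hD
  have hne : Nonempty (CT m n (r ∘ Fin.succAboveEmb i)
      (fun j => ∑ a, X.1 (Fin.succAboveEmb i a) j)) := by
    obtain ⟨z, -⟩ := exists_iota_eq (Fin.succAboveEmb i) X X (fun _ _ => rfl)
    exact ⟨z⟩
  obtain ⟨-, hb⟩ := hdb hne
  have key := hb ℓ (ℓ * rowDist1 (X.1 i) (X'.1 i)) hℓ
    (fun z => f (iota (Fin.succAboveEmb i) X z)) (fun z' => f (iota (Fin.succAboveEmb i) X' z'))
    (fun z z' => by
      have h1 := hf (iota (Fin.succAboveEmb i) X z) (iota (Fin.succAboveEmb i) X' z')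
      rw [rowDist_iota] at h1
      linarith)
  rw [← rowDist1_eq_tsub _ _ hrow] at key
  have e : ℓ * (1 + C) * rowDist1 (X.1 i) (X'.1 i)
      = ℓ * (C * rowDist1 (X.1 i) (X'.1 i)) + ℓ * rowDist1 (X.1 i) (X'.1 i) := by ring
  rw [e]
  exact key

end rowfibre

/-- **Step 1** (spectral independence of the rows).  Under `WHyp m n C` with `0 ≤ C`, for
every system of contingency tables with `m + 1` rows and `n` columns the conditional
expectations given single rows satisfy `∑ i, (E_i - E) ≤ (1 + C) (1 - E)` in the quadratic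
form sense. -/
theorem lambda_le {m n : ℕ} (C : ℝ) (hC : 0 ≤ C) (hW : WHyp m n C) (r : Fin (m + 1) → ℕ)
    (c : Fin n → ℕ) (f : CT (m + 1) n r c → ℝ) :
    ∑ i : Fin (m + 1), (ip f (R ({i}ᶜ) f) - ip f (R univ f))
      ≤ (1 + C) * (ip f f - ip f (R univ f)) := by
  classical
  have hpos : 0 ≤ 1 + C := by linarith
  set T : (CT (m + 1) n r c → ℝ) →ₗ[ℝ] (CT (m + 1) n r c → ℝ) :=
    ∑ i : Fin (m + 1), RP.R ({i}ᶜ) - ((m : ℝ) - C) • RP.R univ with hT
  have hTapp : ∀ g, T g = ∑ i : Fin (m + 1), R ({i}ᶜ) g - ((m : ℝ) - C) • R univ g := by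
    intro g
    rw [hT, LinearMap.sub_apply, LinearMap.sum_apply, LinearMap.smul_apply]
  have hTsymm : ∀ g h, ip g (T h) = ip (T g) h := by
    intro g h
    rw [hTapp, hTapp, ip_sub_right, ip_sub_left, ip_sum_right, ip_sum_left, ip_smul_right,
      ip_smul_left, R_symm univ]
    congr 1
    exact Finset.sum_congr rfl (fun i _ => R_symm _ g h)
  have heig : ∀ (μ : ℝ) (g : CT (m + 1) n r c → ℝ), g ≠ 0 → T g = μ • g → μ ≤ 1 + C := by
    intro μ g hg hTg
    have hR0 : R univ (T g) = (1 + C) • R univ g := by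
      funext x
      rw [hTapp]
      simp only [map_sub, map_sum, map_smul, R_idem, Pi.sub_apply, Pi.smul_apply,
        Finset.sum_apply, smul_eq_mul]
      rw [Finset.sum_congr rfl (fun i _ =>
        congrFun (R_T_R_of_subset (Finset.subset_univ ({i}ᶜ)) g) x)]
      rw [Finset.sum_const, Finset.card_univ, Fintype.card_fin, nsmul_eq_mul]
      push_cast
      ring
    rw [hTg, map_smul] at hR0
    by_cases h0 : R univ g = 0
    · by_contra hμ
      push_neg at hμ
      have hnc : ∃ x y, g x ≠ g y := by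
        by_contra hcon
        push_neg at hcon
        have h1 : R univ g = g := cexp_of_factor _ (fun x y _ => hcon x y)
        rw [h0] at h1
        exact hg h1.symm
      obtain ⟨x0, y0, hxy⟩ := hnc
      have hpair : ∃ x y, g y < g x := by
        rcases lt_or_gt_of_ne hxy with h | h
        · exact ⟨y0, x0, h⟩
        · exact ⟨x0, y0, h⟩
      obtain ⟨x1, y1, h1⟩ := hpair
      have hne1 : x1 ≠ y1 := by
        intro h
        rw [h] at h1
        exact lt_irrefl _ h1
      set S : Finset (CT (m + 1) n r c × CT (m + 1) n r c) :=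
        univ.filter (fun p => p.1 ≠ p.2) with hS
      have hSne : S.Nonempty :=
        ⟨(x1, y1), by rw [hS, mem_filter]; exact ⟨mem_univ _, hne1⟩⟩
      obtain ⟨p, hpS, hpmax⟩ := Finset.exists_max_image S
        (fun p => (g p.1 - g p.2) / rowDist p.1.1 p.2.1) hSne
      set ℓ : ℝ := (g p.1 - g p.2) / rowDist p.1.1 p.2.1 with hℓdef
      have hpne : p.1 ≠ p.2 := (mem_filter.mp hpS).2
      have hdpos : 0 < rowDist p.1.1 p.2.1 := rowDist_pos (fun h => hpne (Subtype.ext h))
      have hℓpos : 0 < ℓ := by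
        have h2 := hpmax (x1, y1) (by rw [hS, mem_filter]; exact ⟨mem_univ _, hne1⟩)
        have h3 : 0 < (g x1 - g y1) / rowDist x1.1 y1.1 :=
          div_pos (by linarith) (rowDist_pos (fun h => hne1 (Subtype.ext h)))
        simp only at h2
        linarith
      have hlip : ∀ Y Y' : CT (m + 1) n r c, g Y - g Y' ≤ ℓ * rowDist Y.1 Y'.1 := by
        intro Y Y'
        by_cases hYY : Y = Y'
        · subst hYY
          rw [rowDist_self]
          simp
        · have h2 := hpmax (Y, Y') (by rw [hS, mem_filter]; exact ⟨mem_univ _, hYY⟩)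
          have hd : 0 < rowDist Y.1 Y'.1 := rowDist_pos (fun h => hYY (Subtype.ext h))
          simp only at h2
          exact (div_le_iff₀ hd).mp h2
      have hev : ∀ x, ∑ i : Fin (m + 1), R ({i}ᶜ) g x = μ * g x := by
        intro x
        have h2 := congrFun hTg x
        rw [hTapp] at h2
        simp only [Pi.sub_apply, Finset.sum_apply, Pi.smul_apply, smul_eq_mul, h0,
          Pi.zero_apply, mul_zero, sub_zero] at h2
        exact h2
      have h5 : μ * (g p.1 - g p.2) ≤ ℓ * (1 + C) * rowDist p.1.1 p.2.1 := by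
        rw [mul_sub, ← hev p.1, ← hev p.2, ← Finset.sum_sub_distrib, rowDist_eq_sum,
          Finset.mul_sum]
        exact Finset.sum_le_sum (fun i _ => cexp_row_lip hW i g ℓ hℓpos.le hlip p.1 p.2)
      have h6 : g p.1 - g p.2 = ℓ * rowDist p.1.1 p.2.1 := by
        rw [hℓdef]
        field_simp
      rw [h6] at h5
      have h7 : 0 < ℓ * rowDist p.1.1 p.2.1 := mul_pos hℓpos hdpos
      nlinarith
    · have hx : ∃ x, R univ g x ≠ 0 := by
        by_contra hcon
        push_neg at hcon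
        exact h0 (funext hcon)
      obtain ⟨x, hx⟩ := hx
      have h2 := congrFun hR0 x
      simp only [Pi.smul_apply, smul_eq_mul] at h2
      have h3 : μ = 1 + C := mul_right_cancel₀ hx h2
      linarith
  have key := form_le_of_eigen T hTsymm (1 + C) heig f
  rw [hTapp, ip_sub_right, ip_sum_right, ip_smul_right] at key
  rw [Finset.sum_sub_distrib, Finset.sum_const, Finset.card_univ, Fintype.card_fin,
    nsmul_eq_mul]
  push_cast
  linarith

end Vale.Agent.Lib.P328.W1
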